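import Mathlib
import Vale.Agent.Lib.P162.Defs
import Vale.Agent.Lib.P162.RDefs
import Vale.Agent.Lib.P162.CVDefs
import Vale.Agent.Lib.P162.helper43.LumpTail
import Vale.Agent.Lib.P162.helper95.KmatBasic
import Vale.Agent.Lib.P162.helper36.MoveInj
import Vale.Agent.Lib.P162.helper23.ProdTv
import Vale.Agent.Lib.P162.helper93.Gap

/-!
# P162-CV1 (pool job 390, backup copy of helper12): the two-walker kernel is a stochastic matrix
-/

namespace Vale.Agent.Lib.P162.H12CV

open Finset BigOperators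

/-- Summing the kernel of `j + 1` cards over the START position of the new card gives the
kernel of the `j` old cards. -/
theorem step_sum_start (h j : ℕ) [NeZero h] (v : Fin j → ZMod (2 * h))
    (y : Fin (j + 1) → ZMod (2 * h)) :
    ∑ q : ZMod (2 * h), Kmat h (j + 1) (Fin.cons q v : Fin (j + 1) → ZMod (2 * h)) y
      = Kmat h j v (Fin.tail y) := by
  show ∑ q : ZMod (2 * h),
      ((univ.filter fun c : ZMod h → Bool =>
        ∀ i', move h c ((Fin.cons q v : Fin (j + 1) → ZMod (2 * h)) i') = y i').card : ℝ) / 2 ^ h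
    = ((univ.filter fun c : ZMod h → Bool =>
        ∀ i, move h c (v i) = Fin.tail y i).card : ℝ) / 2 ^ h
  rw [← Finset.sum_div]
  congr 1
  rw [← Nat.cast_sum]
  congr 1
  have hbij : ∀ c : ZMod h → Bool, Function.Bijective (move h c) := fun c =>
    ⟨H36.move_injective h c, Finite.injective_iff_surjective.mp (H36.move_injective h c)⟩
  rw [Finset.card_eq_sum_card_fiberwise
    (f := fun c : ZMod h → Bool => (Equiv.ofBijective (move h c) (hbij c)).symm (y 0))
    (s := univ.filter fun c : ZMod h → Bool => ∀ i, move h c (v i) = Fin.tail y i)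
    (t := (univ : Finset (ZMod (2 * h)))) (fun _ _ => Finset.mem_univ _)]
  refine Finset.sum_congr rfl fun q _ => ?_
  congr 1
  ext c
  rw [Finset.mem_filter, Finset.mem_filter, Finset.mem_filter]
  have key : (Equiv.ofBijective (move h c) (hbij c)).symm (y 0) = q ↔ move h c q = y 0 := by
    rw [Equiv.symm_apply_eq]
    constructor
    · intro h1
      exact h1.symm
    · intro h1
      exact h1.symm
  constructor
  · rintro ⟨hu, hc⟩
    refine ⟨⟨hu, fun i => ?_⟩, ?_⟩
    · have h1 := hc i.succ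
      rw [Fin.cons_succ] at h1
      exact h1
    · have h1 := hc 0
      rw [Fin.cons_zero] at h1
      exact key.mpr h1
  · rintro ⟨⟨hu, hc⟩, h0⟩
    refine ⟨hu, fun i' => ?_⟩
    refine Fin.cases ?_ (fun i => ?_) i'
    · rw [Fin.cons_zero]
      exact key.mp h0
    · rw [Fin.cons_succ]
      exact hc i

theorem Qmat_nonneg (h j : ℕ) [NeZero h] (u y : Fin (j + 2) → ZMod (2 * h)) :
    0 ≤ Qmat h j u y := by
  rw [Qmat_apply]
  exact div_nonneg (mul_nonneg (H95.stepProb_nonneg h (j + 1) _ _)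
    (H95.stepProb_nonneg h (j + 1) _ _)) (H95.stepProb_nonneg h j _ _)

/-- Row sums of the two-walker kernel, for a start written with `Fin.cons`. -/
theorem Qmat_row_sum_cons (h j : ℕ) [NeZero h] (q q' : ZMod (2 * h))
    (v : Fin j → ZMod (2 * h)) :
    ∑ y, Qmat h j (Fin.cons q (Fin.cons q' v) : Fin (j + 2) → ZMod (2 * h)) y = 1 := by
  rw [H23.sum_fin_succ_fun (j + 1)
    (fun y => Qmat h j (Fin.cons q (Fin.cons q' v) : Fin (j + 2) → ZMod (2 * h)) y)]
  have h1 : ∀ q1 : ZMod (2 * h),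
      ∑ y' : Fin (j + 1) → ZMod (2 * h),
        Qmat h j (Fin.cons q (Fin.cons q' v) : Fin (j + 2) → ZMod (2 * h))
          (Fin.cons q1 y' : Fin (j + 2) → ZMod (2 * h))
      = ∑ q1' : ZMod (2 * h), ∑ v1 : Fin j → ZMod (2 * h),
          Kmat h (j + 1) (Fin.cons q v : Fin (j + 1) → ZMod (2 * h)) (Fin.cons q1 v1)
            * Kmat h (j + 1) (Fin.cons q' v : Fin (j + 1) → ZMod (2 * h)) (Fin.cons q1' v1)
            / Kmat h j v v1 := by
    intro q1
    rw [H23.sum_fin_succ_fun j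
      (fun y' => Qmat h j (Fin.cons q (Fin.cons q' v) : Fin (j + 2) → ZMod (2 * h))
        (Fin.cons q1 y' : Fin (j + 2) → ZMod (2 * h)))]
    rfl
  rw [Finset.sum_congr rfl (fun q1 _ => h1 q1)]
  have h2 : ∀ q1 : ZMod (2 * h),
      ∑ q1' : ZMod (2 * h), ∑ v1 : Fin j → ZMod (2 * h),
          Kmat h (j + 1) (Fin.cons q v : Fin (j + 1) → ZMod (2 * h)) (Fin.cons q1 v1)
            * Kmat h (j + 1) (Fin.cons q' v : Fin (j + 1) → ZMod (2 * h)) (Fin.cons q1' v1)
            / Kmat h j v v1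
      = ∑ v1 : Fin j → ZMod (2 * h), ∑ q1' : ZMod (2 * h),
          Kmat h (j + 1) (Fin.cons q v : Fin (j + 1) → ZMod (2 * h)) (Fin.cons q1 v1)
            * Kmat h (j + 1) (Fin.cons q' v : Fin (j + 1) → ZMod (2 * h)) (Fin.cons q1' v1)
            / Kmat h j v v1 := fun q1 => Finset.sum_comm
  rw [Finset.sum_congr rfl (fun q1 _ => h2 q1), Finset.sum_comm]
  have h3 : ∀ v1 : Fin j → ZMod (2 * h),
      ∑ q1 : ZMod (2 * h), ∑ q1' : ZMod (2 * h),
          Kmat h (j + 1) (Fin.cons q v : Fin (j + 1) → ZMod (2 * h)) (Fin.cons q1 v1)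
            * Kmat h (j + 1) (Fin.cons q' v : Fin (j + 1) → ZMod (2 * h)) (Fin.cons q1' v1)
            / Kmat h j v v1
      = Kmat h j v v1 := by
    intro v1
    have hA : ∑ q1 : ZMod (2 * h),
        Kmat h (j + 1) (Fin.cons q v : Fin (j + 1) → ZMod (2 * h)) (Fin.cons q1 v1)
        = Kmat h j v v1 := by
      rw [H43.step_tail, Fin.tail_cons]
    have hB : ∑ q1' : ZMod (2 * h),
        Kmat h (j + 1) (Fin.cons q' v : Fin (j + 1) → ZMod (2 * h)) (Fin.cons q1' v1)
        = Kmat h j v v1 := by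
      rw [H43.step_tail, Fin.tail_cons]
    have hC : ∀ q1 : ZMod (2 * h), ∑ q1' : ZMod (2 * h),
          Kmat h (j + 1) (Fin.cons q v : Fin (j + 1) → ZMod (2 * h)) (Fin.cons q1 v1)
            * Kmat h (j + 1) (Fin.cons q' v : Fin (j + 1) → ZMod (2 * h)) (Fin.cons q1' v1)
            / Kmat h j v v1
        = Kmat h (j + 1) (Fin.cons q v : Fin (j + 1) → ZMod (2 * h)) (Fin.cons q1 v1)
            * Kmat h j v v1 / Kmat h j v v1 := by
      intro q1
      rw [← Finset.sum_div, ← Finset.mul_sum, hB]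
    rw [Finset.sum_congr rfl (fun q1 _ => hC q1), ← Finset.sum_div, ← Finset.sum_mul, hA]
    exact mul_self_div_self _
  rw [Finset.sum_congr rfl (fun v1 _ => h3 v1)]
  exact H95.stepProb_sum h j v

theorem Qmat_row_sum (h j : ℕ) [NeZero h] (u : Fin (j + 2) → ZMod (2 * h)) :
    ∑ y, Qmat h j u y = 1 := by
  have hu : u = (Fin.cons (u 0) (Fin.cons (Fin.tail u 0) (Fin.tail (Fin.tail u)))
      : Fin (j + 2) → ZMod (2 * h)) := by
    rw [Fin.cons_self_tail, Fin.cons_self_tail]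
  rw [hu]
  exact Qmat_row_sum_cons h j _ _ _

theorem Qpow_nonneg (h j : ℕ) [NeZero h] (t : ℕ) (u y : Fin (j + 2) → ZMod (2 * h)) :
    0 ≤ (Qmat h j ^ t) u y :=
  H93.H93_pow_nonneg (Qmat h j) (Qmat_nonneg h j) t u y

theorem Qpow_row_sum (h j : ℕ) [NeZero h] (t : ℕ) (u : Fin (j + 2) → ZMod (2 * h)) :
    ∑ y, (Qmat h j ^ t) u y = 1 :=
  H93.H93_pow_rowsum (Qmat h j) (Qmat_row_sum h j) t u

end Vale.Agent.Lib.P162.H12CV
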