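import Mathlib
import Vale.Agent.Lib.P162.Defs
import Vale.Agent.Lib.P162.RDefs
import Vale.Agent.Lib.P162.CVDefs
import Vale.Agent.Lib.P162.helper43.LumpTail
import Vale.Agent.Lib.P162.helper95.KmatBasic
import Vale.Agent.Lib.P162.helper23.ProdTv
import Vale.Agent.Lib.P162.helper12.QStoch

/-!
# P162-CV2 (pool job 391, copy of helper12): summing the two-walker kernel over the start of one
walker leaves the chain of the other walker together with the old cards
-/

namespace Vale.Agent.Lib.P162.H12CV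

open Finset BigOperators

/-- A transition probability of the chain of `j + 1` cards vanishes when the transition
probability of its old cards vanishes. -/
theorem cv2_zero_of_zero (h j : ℕ) [NeZero h] (q a : ZMod (2 * h)) (v x : Fin j → ZMod (2 * h))
    (hd : Kmat h j v x = 0) :
    Kmat h (j + 1) (Fin.cons q v : Fin (j + 1) → ZMod (2 * h)) (Fin.cons a x) = 0 := by
  have hs := H43.step_tail h j (Fin.cons q v : Fin (j + 1) → ZMod (2 * h)) x
  rw [Fin.tail_cons, hd] at hs
  have hnn : ∀ q1 ∈ (univ : Finset (ZMod (2 * h))),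
      0 ≤ Kmat h (j + 1) (Fin.cons q v : Fin (j + 1) → ZMod (2 * h)) (Fin.cons q1 x) :=
    fun q1 _ => H95.stepProb_nonneg h (j + 1) _ _
  exact (Finset.sum_eq_zero_iff_of_nonneg hnn).mp hs a (Finset.mem_univ a)

theorem cv2_step_two_cons (h j : ℕ) [NeZero h] (q a b : ZMod (2 * h))
    (v x : Fin j → ZMod (2 * h)) :
    ∑ q' : ZMod (2 * h), Qmat h j (Fin.cons q (Fin.cons q' v) : Fin (j + 2) → ZMod (2 * h))
        (Fin.cons a (Fin.cons b x))
      = Kmat h (j + 1) (Fin.cons q v : Fin (j + 1) → ZMod (2 * h)) (Fin.cons a x) := by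
  show ∑ q' : ZMod (2 * h),
      Kmat h (j + 1) (Fin.cons q v : Fin (j + 1) → ZMod (2 * h)) (Fin.cons a x)
        * Kmat h (j + 1) (Fin.cons q' v : Fin (j + 1) → ZMod (2 * h)) (Fin.cons b x)
        / Kmat h j v x
      = Kmat h (j + 1) (Fin.cons q v : Fin (j + 1) → ZMod (2 * h)) (Fin.cons a x)
  rw [← Finset.sum_div, ← Finset.mul_sum, step_sum_start, Fin.tail_cons]
  by_cases hd : Kmat h j v x = 0
  · rw [cv2_zero_of_zero h j q a v x hd, zero_mul, zero_div]
  · rw [mul_div_assoc, div_self hd, mul_one]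

theorem cv2_step_one_cons (h j : ℕ) [NeZero h] (q' a b : ZMod (2 * h))
    (v x : Fin j → ZMod (2 * h)) :
    ∑ q : ZMod (2 * h), Qmat h j (Fin.cons q (Fin.cons q' v) : Fin (j + 2) → ZMod (2 * h))
        (Fin.cons a (Fin.cons b x))
      = Kmat h (j + 1) (Fin.cons q' v : Fin (j + 1) → ZMod (2 * h)) (Fin.cons b x) := by
  show ∑ q : ZMod (2 * h),
      Kmat h (j + 1) (Fin.cons q v : Fin (j + 1) → ZMod (2 * h)) (Fin.cons a x)
        * Kmat h (j + 1) (Fin.cons q' v : Fin (j + 1) → ZMod (2 * h)) (Fin.cons b x)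
        / Kmat h j v x
      = Kmat h (j + 1) (Fin.cons q' v : Fin (j + 1) → ZMod (2 * h)) (Fin.cons b x)
  rw [← Finset.sum_div, ← Finset.sum_mul, step_sum_start, Fin.tail_cons]
  by_cases hd : Kmat h j v x = 0
  · rw [cv2_zero_of_zero h j q' b v x hd, mul_zero, zero_div]
  · rw [mul_comm, mul_div_assoc, div_self hd, mul_one]

theorem cv2_eta {α : Type*} {j : ℕ} (u : Fin (j + 2) → α) :
    u = (Fin.cons (u 0) (Fin.cons (Fin.tail u 0) (Fin.tail (Fin.tail u))) : Fin (j + 2) → α) := by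
  rw [Fin.cons_self_tail, Fin.cons_self_tail]

theorem cv2_step_two (h j : ℕ) [NeZero h] (q : ZMod (2 * h)) (v : Fin j → ZMod (2 * h))
    (u : Fin (j + 2) → ZMod (2 * h)) :
    ∑ q' : ZMod (2 * h), Qmat h j (Fin.cons q (Fin.cons q' v) : Fin (j + 2) → ZMod (2 * h)) u
      = Kmat h (j + 1) (Fin.cons q v : Fin (j + 1) → ZMod (2 * h)) (dropTwo u) := by
  rw [cv2_eta u]
  exact cv2_step_two_cons h j q _ _ v _

theorem cv2_step_one (h j : ℕ) [NeZero h] (q' : ZMod (2 * h)) (v : Fin j → ZMod (2 * h))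
    (u : Fin (j + 2) → ZMod (2 * h)) :
    ∑ q : ZMod (2 * h), Qmat h j (Fin.cons q (Fin.cons q' v) : Fin (j + 2) → ZMod (2 * h)) u
      = Kmat h (j + 1) (Fin.cons q' v : Fin (j + 1) → ZMod (2 * h)) (Fin.tail u) := by
  rw [cv2_eta u]
  exact cv2_step_one_cons h j q' _ _ v _

theorem cv2_one_two {α : Type*} [Fintype α] [DecidableEq α] {j : ℕ}
    [DecidableEq (Fin (j + 2) → α)] [DecidableEq (Fin (j + 1) → α)]
    (q a b : α) (v x : Fin j → α) :
    ∑ q' : α, (if (Fin.cons q (Fin.cons q' v) : Fin (j + 2) → α) = Fin.cons a (Fin.cons b x)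
        then (1 : ℝ) else 0)
      = if (Fin.cons q v : Fin (j + 1) → α) = Fin.cons a x then 1 else 0 := by
  by_cases hc : (Fin.cons q v : Fin (j + 1) → α) = Fin.cons a x
  · rw [if_pos hc]
    obtain ⟨h1, h2⟩ := Fin.cons_inj.mp hc
    rw [Finset.sum_eq_single b]
    · rw [if_pos (by rw [h1, h2])]
    · intro q' _ hne
      rw [if_neg]
      intro heq
      exact hne (Fin.cons_inj.mp (Fin.cons_inj.mp heq).2).1
    · intro hb
      exact absurd (Finset.mem_univ b) hb
  · rw [if_neg hc]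
    apply Finset.sum_eq_zero
    intro q' _
    rw [if_neg]
    intro heq
    apply hc
    rw [(Fin.cons_inj.mp heq).1, (Fin.cons_inj.mp (Fin.cons_inj.mp heq).2).2]

theorem cv2_one_one {α : Type*} [Fintype α] [DecidableEq α] {j : ℕ}
    [DecidableEq (Fin (j + 2) → α)] [DecidableEq (Fin (j + 1) → α)]
    (q' a b : α) (v x : Fin j → α) :
    ∑ q : α, (if (Fin.cons q (Fin.cons q' v) : Fin (j + 2) → α) = Fin.cons a (Fin.cons b x)
        then (1 : ℝ) else 0)
      = if (Fin.cons q' v : Fin (j + 1) → α) = Fin.cons b x then 1 else 0 := by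
  by_cases hc : (Fin.cons q' v : Fin (j + 1) → α) = Fin.cons b x
  · rw [if_pos hc]
    rw [Finset.sum_eq_single a]
    · rw [if_pos (by rw [hc])]
    · intro q _ hne
      rw [if_neg]
      intro heq
      exact hne (Fin.cons_inj.mp heq).1
    · intro ha
      exact absurd (Finset.mem_univ a) ha
  · rw [if_neg hc]
    apply Finset.sum_eq_zero
    intro q _
    rw [if_neg]
    intro heq
    exact hc (Fin.cons_inj.mp heq).2

theorem Qpow_sum_two_cons (h j : ℕ) [NeZero h] (t : ℕ) (q : ZMod (2 * h))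
    (v : Fin j → ZMod (2 * h)) (a b : ZMod (2 * h)) (x : Fin j → ZMod (2 * h)) :
    ∑ q' : ZMod (2 * h), (Qmat h j ^ t) (Fin.cons q (Fin.cons q' v))
        (Fin.cons a (Fin.cons b x) : Fin (j + 2) → ZMod (2 * h))
      = (Kmat h (j + 1) ^ t) (Fin.cons q v) (Fin.cons a x : Fin (j + 1) → ZMod (2 * h)) := by
  induction t generalizing q v with
  | zero =>
    rw [pow_zero, pow_zero, Matrix.one_apply]
    have hL : ∀ q' : ZMod (2 * h),
        (1 : Matrix (Fin (j + 2) → ZMod (2 * h)) (Fin (j + 2) → ZMod (2 * h)) ℝ)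
          (Fin.cons q (Fin.cons q' v)) (Fin.cons a (Fin.cons b x))
        = if (Fin.cons q (Fin.cons q' v) : Fin (j + 2) → ZMod (2 * h))
            = Fin.cons a (Fin.cons b x) then 1 else 0 := fun q' => Matrix.one_apply
    rw [Finset.sum_congr rfl (fun q' _ => hL q')]
    exact cv2_one_two q a b v x
  | succ t ih =>
    have e1 : ∀ q' : ZMod (2 * h),
        (Qmat h j ^ (t + 1)) (Fin.cons q (Fin.cons q' v))
          (Fin.cons a (Fin.cons b x) : Fin (j + 2) → ZMod (2 * h))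
        = ∑ u : Fin (j + 2) → ZMod (2 * h), Qmat h j (Fin.cons q (Fin.cons q' v)) u
            * (Qmat h j ^ t) u (Fin.cons a (Fin.cons b x)) := by
      intro q'
      rw [pow_succ', Matrix.mul_apply]
    rw [Finset.sum_congr rfl (fun q' _ => e1 q'), Finset.sum_comm]
    have e2 : ∀ u : Fin (j + 2) → ZMod (2 * h),
        ∑ q' : ZMod (2 * h), Qmat h j (Fin.cons q (Fin.cons q' v)) u
            * (Qmat h j ^ t) u (Fin.cons a (Fin.cons b x))
        = Kmat h (j + 1) (Fin.cons q v) (dropTwo u)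
            * (Qmat h j ^ t) u (Fin.cons a (Fin.cons b x)) := by
      intro u
      rw [← Finset.sum_mul, cv2_step_two]
    rw [Finset.sum_congr rfl (fun u _ => e2 u)]
    rw [H23.sum_fin_succ_fun (j + 1) (fun u : Fin (j + 2) → ZMod (2 * h) =>
      Kmat h (j + 1) (Fin.cons q v) (dropTwo u)
        * (Qmat h j ^ t) u (Fin.cons a (Fin.cons b x)))]
    have e3 : ∀ a' : ZMod (2 * h),
        ∑ y' : Fin (j + 1) → ZMod (2 * h),
          Kmat h (j + 1) (Fin.cons q v)
              (dropTwo (Fin.cons a' y' : Fin (j + 2) → ZMod (2 * h)))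
            * (Qmat h j ^ t) (Fin.cons a' y') (Fin.cons a (Fin.cons b x))
        = ∑ x' : Fin j → ZMod (2 * h),
          Kmat h (j + 1) (Fin.cons q v) (Fin.cons a' x' : Fin (j + 1) → ZMod (2 * h))
            * (Kmat h (j + 1) ^ t) (Fin.cons a' x') (Fin.cons a x) := by
      intro a'
      rw [H23.sum_fin_succ_fun j (fun y' : Fin (j + 1) → ZMod (2 * h) =>
        Kmat h (j + 1) (Fin.cons q v)
            (dropTwo (Fin.cons a' y' : Fin (j + 2) → ZMod (2 * h)))
          * (Qmat h j ^ t) (Fin.cons a' y') (Fin.cons a (Fin.cons b x)))]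
      rw [Finset.sum_comm]
      refine Finset.sum_congr rfl fun x' _ => ?_
      rw [← ih a' x', Finset.mul_sum]
      rfl
    rw [Finset.sum_congr rfl (fun a' _ => e3 a')]
    rw [pow_succ', Matrix.mul_apply, H23.sum_fin_succ_fun j (fun z : Fin (j + 1) → ZMod (2 * h) =>
      Kmat h (j + 1) (Fin.cons q v) z * (Kmat h (j + 1) ^ t) z (Fin.cons a x))]

theorem Qpow_sum_one_cons (h j : ℕ) [NeZero h] (t : ℕ) (q' : ZMod (2 * h))
    (v : Fin j → ZMod (2 * h)) (a b : ZMod (2 * h)) (x : Fin j → ZMod (2 * h)) :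
    ∑ q : ZMod (2 * h), (Qmat h j ^ t) (Fin.cons q (Fin.cons q' v))
        (Fin.cons a (Fin.cons b x) : Fin (j + 2) → ZMod (2 * h))
      = (Kmat h (j + 1) ^ t) (Fin.cons q' v) (Fin.cons b x : Fin (j + 1) → ZMod (2 * h)) := by
  induction t generalizing q' v with
  | zero =>
    rw [pow_zero, pow_zero, Matrix.one_apply]
    have hL : ∀ q : ZMod (2 * h),
        (1 : Matrix (Fin (j + 2) → ZMod (2 * h)) (Fin (j + 2) → ZMod (2 * h)) ℝ)
          (Fin.cons q (Fin.cons q' v)) (Fin.cons a (Fin.cons b x))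
        = if (Fin.cons q (Fin.cons q' v) : Fin (j + 2) → ZMod (2 * h))
            = Fin.cons a (Fin.cons b x) then 1 else 0 := fun q => Matrix.one_apply
    rw [Finset.sum_congr rfl (fun q _ => hL q)]
    exact cv2_one_one q' a b v x
  | succ t ih =>
    have e1 : ∀ q : ZMod (2 * h),
        (Qmat h j ^ (t + 1)) (Fin.cons q (Fin.cons q' v))
          (Fin.cons a (Fin.cons b x) : Fin (j + 2) → ZMod (2 * h))
        = ∑ u : Fin (j + 2) → ZMod (2 * h), Qmat h j (Fin.cons q (Fin.cons q' v)) u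
            * (Qmat h j ^ t) u (Fin.cons a (Fin.cons b x)) := by
      intro q
      rw [pow_succ', Matrix.mul_apply]
    rw [Finset.sum_congr rfl (fun q _ => e1 q), Finset.sum_comm]
    have e2 : ∀ u : Fin (j + 2) → ZMod (2 * h),
        ∑ q : ZMod (2 * h), Qmat h j (Fin.cons q (Fin.cons q' v)) u
            * (Qmat h j ^ t) u (Fin.cons a (Fin.cons b x))
        = Kmat h (j + 1) (Fin.cons q' v) (Fin.tail u)
            * (Qmat h j ^ t) u (Fin.cons a (Fin.cons b x)) := by
      intro u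
      rw [← Finset.sum_mul, cv2_step_one]
    rw [Finset.sum_congr rfl (fun u _ => e2 u)]
    rw [H23.sum_fin_succ_fun (j + 1) (fun u : Fin (j + 2) → ZMod (2 * h) =>
      Kmat h (j + 1) (Fin.cons q' v) (Fin.tail u)
        * (Qmat h j ^ t) u (Fin.cons a (Fin.cons b x)))]
    rw [Finset.sum_comm]
    rw [H23.sum_fin_succ_fun j (fun y' : Fin (j + 1) → ZMod (2 * h) =>
      ∑ a' : ZMod (2 * h), Kmat h (j + 1) (Fin.cons q' v)
          (Fin.tail (Fin.cons a' y' : Fin (j + 2) → ZMod (2 * h)))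
        * (Qmat h j ^ t) (Fin.cons a' y') (Fin.cons a (Fin.cons b x)))]
    have e3 : ∀ (b' : ZMod (2 * h)) (x' : Fin j → ZMod (2 * h)),
        ∑ a' : ZMod (2 * h), Kmat h (j + 1) (Fin.cons q' v)
            (Fin.tail (Fin.cons a' (Fin.cons b' x') : Fin (j + 2) → ZMod (2 * h)))
          * (Qmat h j ^ t) (Fin.cons a' (Fin.cons b' x')) (Fin.cons a (Fin.cons b x))
        = Kmat h (j + 1) (Fin.cons q' v) (Fin.cons b' x' : Fin (j + 1) → ZMod (2 * h))
            * (Kmat h (j + 1) ^ t) (Fin.cons b' x') (Fin.cons b x) := by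
      intro b' x'
      rw [← ih b' x', Finset.mul_sum]
      rfl
    rw [Finset.sum_congr rfl (fun b' _ => Finset.sum_congr rfl (fun x' _ => e3 b' x'))]
    rw [pow_succ', Matrix.mul_apply, H23.sum_fin_succ_fun j (fun z : Fin (j + 1) → ZMod (2 * h) =>
      Kmat h (j + 1) (Fin.cons q' v) z * (Kmat h (j + 1) ^ t) z (Fin.cons b x))]

theorem Qpow_sum_two (h j : ℕ) [NeZero h] (t : ℕ) (q : ZMod (2 * h)) (v : Fin j → ZMod (2 * h))
    (y : Fin (j + 2) → ZMod (2 * h)) :
    ∑ q' : ZMod (2 * h), (Qmat h j ^ t) (Fin.cons q (Fin.cons q' v)) y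
      = (Kmat h (j + 1) ^ t) (Fin.cons q v) (dropTwo y) := by
  rw [cv2_eta y]
  exact Qpow_sum_two_cons h j t q v _ _ _

theorem Qpow_sum_one (h j : ℕ) [NeZero h] (t : ℕ) (q' : ZMod (2 * h)) (v : Fin j → ZMod (2 * h))
    (y : Fin (j + 2) → ZMod (2 * h)) :
    ∑ q : ZMod (2 * h), (Qmat h j ^ t) (Fin.cons q (Fin.cons q' v)) y
      = (Kmat h (j + 1) ^ t) (Fin.cons q' v) (Fin.tail y) := by
  rw [cv2_eta y]
  exact Qpow_sum_one_cons h j t q' v _ _ _

end Vale.Agent.Lib.P162.H12CV
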